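import Mathlib

open Finset

namespace Vale.Agent.P034

variable {α : Type*} [Fintype α] [DecidableEq α]

/-- Cost at `q` of a family of sets. -/
def cost (q : ℝ) (𝒢 : Finset (Finset α)) : ℝ := ∑ S ∈ 𝒢, q ^ S.card

/-- `H` contains a member of `𝒢`. -/
def Hit (𝒢 : Finset (Finset α)) (H : Finset α) : Prop := ∃ S ∈ 𝒢, S ⊆ H

/-- Weight below `H`. -/
def below (g : Finset α → ℝ) (H : Finset α) : ℝ := ∑ S ∈ H.powerset, g S

omit [Fintype α] in
lemma cost_union_le {q : ℝ} (hq : 0 ≤ q) (A B : Finset (Finset α)) :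
    cost q (A ∪ B) ≤ cost q A + cost q B := by
  unfold cost
  have := sum_union_inter (f := fun S : Finset α => q ^ S.card) (s₁ := A) (s₂ := B)
  have h0 : 0 ≤ ∑ S ∈ A ∩ B, q ^ S.card := sum_nonneg fun S _ => pow_nonneg hq _
  linarith

omit [Fintype α] [DecidableEq α] in
lemma cost_nonneg {q : ℝ} (hq : 0 ≤ q) (A : Finset (Finset α)) : 0 ≤ cost q A :=
  sum_nonneg fun _ _ => pow_nonneg hq _

omit [Fintype α] [DecidableEq α] in
lemma Hit.mono {𝒢 𝒢' : Finset (Finset α)} {H : Finset α} (h : Hit 𝒢 H) (hs : 𝒢 ⊆ 𝒢') :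
    Hit 𝒢' H := by
  obtain ⟨S, hS, hSH⟩ := h
  exact ⟨S, hs hS, hSH⟩

omit [Fintype α] [DecidableEq α] in
/-- Derandomised rounding of a fractional cover. -/
theorem rounding {ι : Type*} [DecidableEq ι] (q : ℝ) (hq : 0 ≤ q) (U : ι → Finset α)
    (a : ι → ℝ) (ha : ∀ i, 0 ≤ a i) [DecidableEq α] (A : Finset ι) :
    ∀ 𝒱 : Finset (Finset α), ∃ 𝒢 : Finset (Finset α), (∀ V ∈ 𝒱, Hit 𝒢 V) ∧
      cost q 𝒢 ≤ ∑ i ∈ A, a i * q ^ (U i).card
        + ∑ V ∈ 𝒱, q ^ V.card * Real.exp (-(∑ i ∈ A with U i ⊆ V, a i)) := by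
  induction A using Finset.induction_on with
  | empty =>
    intro 𝒱
    exact ⟨𝒱, fun V hV => ⟨V, hV, subset_refl _⟩, by simp [cost]⟩
  | @insert i A hi ih =>
    intro 𝒱
    let E : Finset α → ℝ := fun V => q ^ V.card * Real.exp (-(∑ j ∈ A with U j ⊆ V, a j))
    set X := ∑ V ∈ 𝒱 with U i ⊆ V, E V with hX
    set Y := ∑ V ∈ 𝒱 with ¬ U i ⊆ V, E V with hY
    have hXY : ∑ V ∈ 𝒱, E V = X + Y := (sum_filter_add_sum_filter_not _ _ _).symm
    have hX0 : 0 ≤ X := sum_nonneg fun V _ => by positivity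
    have key : ∑ V ∈ 𝒱, q ^ V.card * Real.exp (-(∑ j ∈ insert i A with U j ⊆ V, a j))
        = Real.exp (-a i) * X + Y := by
      rw [← sum_filter_add_sum_filter_not 𝒱 (fun V => U i ⊆ V), hX, hY, mul_sum]
      congr 1
      · refine sum_congr rfl fun V hV => ?_
        rw [mem_filter] at hV
        rw [filter_insert, if_pos hV.2, sum_insert (by simp [hi]), neg_add, Real.exp_add]
        simp only [E]
        ring
      · refine sum_congr rfl fun V hV => ?_
        rw [mem_filter] at hV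
        rw [filter_insert, if_neg hV.2]
    set c := q ^ (U i).card with hc
    have hc0 : 0 ≤ c := pow_nonneg hq _
    have hmin : min c X ≤ a i * c + Real.exp (-a i) * X := by
      have hE := Real.add_one_le_exp (-a i)
      have hE0 := (Real.exp_pos (-a i)).le
      rcases le_or_gt 1 (a i) with h | h
      · nlinarith [min_le_left c X]
      · have h1 : min c X ≤ a i * c + (1 - a i) * X := by
          nlinarith [min_le_left c X, min_le_right c X, ha i]
        nlinarith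
    rw [sum_insert hi, key]
    rcases le_total c X with h | h
    · obtain ⟨𝒢, hcov, hcost⟩ := ih (𝒱.filter fun V => ¬ U i ⊆ V)
      refine ⟨insert (U i) 𝒢, fun V hV => ?_, ?_⟩
      · by_cases hs : U i ⊆ V
        · exact ⟨U i, mem_insert_self _ _, hs⟩
        · exact (hcov V (mem_filter.2 ⟨hV, hs⟩)).mono (subset_insert _ _)
      · have h1 : cost q (insert (U i) 𝒢) ≤ c + cost q 𝒢 := by
          rw [insert_eq]
          refine (cost_union_le hq _ _).trans ?_
          simp [cost, hc]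
        rw [min_eq_left h] at hmin
        change cost q 𝒢 ≤ _ + Y at hcost
        linarith
    · obtain ⟨𝒢, hcov, hcost⟩ := ih 𝒱
      refine ⟨𝒢, hcov, ?_⟩
      change cost q 𝒢 ≤ _ + ∑ V ∈ 𝒱, E V at hcost
      rw [hXY] at hcost
      rw [min_eq_right h] at hmin
      linarith

/-- Conditional expectation weight above `J`. -/
def deg (q : ℝ) (h : Finset α → ℝ) (R : Finset (Finset α)) (J : Finset α) : ℝ :=
  ∑ S ∈ R with J ⊆ S, h S * q ^ (S.card - J.card)

omit [Fintype α] in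
lemma deg_nonneg {q : ℝ} (hq : 0 ≤ q) {h : Finset α → ℝ} (hh : ∀ S, 0 ≤ h S)
    (R : Finset (Finset α)) (J : Finset α) : 0 ≤ deg q h R J :=
  sum_nonneg fun S _ => mul_nonneg (hh S) (pow_nonneg hq _)

omit [Fintype α] in
lemma deg_mono {q : ℝ} (hq : 0 ≤ q) {h : Finset α → ℝ} (hh : ∀ S, 0 ≤ h S)
    {R R' : Finset (Finset α)} (hR : R ⊆ R') (J : Finset α) : deg q h R J ≤ deg q h R' J :=
  sum_le_sum_of_subset_of_nonneg (filter_subset_filter _ hR)
    fun S _ _ => mul_nonneg (hh S) (pow_nonneg hq _)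

/-- Splitting the new part of `S` over its intersection with `P`. -/
lemma sum_new_le {q : ℝ} (hq : 0 ≤ q) {h : Finset α → ℝ} (hh : ∀ S, 0 ≤ h S)
    (R : Finset (Finset α)) (C P : Finset α) (hCP : C ⊆ P) (hR : ∀ S ∈ R, C ⊆ S) :
    ∑ S ∈ R, h S * q ^ (S \ P).card ≤ ∑ J ∈ (P \ C).powerset, deg q h R (C ∪ J) := by
  rw [← sum_fiberwise_of_maps_to (t := (P \ C).powerset) (g := fun S => (S ∩ P) \ C)
    (fun S _ => mem_powerset.2 (sdiff_subset_sdiff inter_subset_right (subset_refl _)))]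
  refine sum_le_sum fun J _ => ?_
  unfold deg
  refine le_trans (le_of_eq (sum_congr rfl fun S hS => ?_))
    (sum_le_sum_of_subset_of_nonneg ?_ fun S _ _ => mul_nonneg (hh S) (pow_nonneg hq _))
  · rw [mem_filter] at hS
    have hCI : C ⊆ S ∩ P := subset_inter (hR S hS.1) hCP
    have : C ∪ J = S ∩ P := by rw [← hS.2, union_sdiff_of_subset hCI]
    rw [this, card_sdiff, inter_comm]
  · intro S hS
    rw [mem_filter] at hS ⊢
    refine ⟨hS.1, union_subset (hR S hS.1) ?_⟩
    rw [← hS.2]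
    exact sdiff_subset.trans inter_subset_left

end Vale.Agent.P034
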