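import Vale.Agent.P034.Basic

open Finset

namespace Vale.Agent.P034

variable {α : Type*} [Fintype α] [DecidableEq α]

/-- The potential used to choose cores inside `s`-sets. -/
noncomputable def wgt (N : ℝ) (s i : ℕ) : ℝ := N ^ i * ((s - i).factorial : ℝ) / (s.factorial : ℝ)

lemma wgt_pos {N : ℝ} (hN : 0 < N) (s i : ℕ) : 0 < wgt N s i := by
  unfold wgt; positivity

/-- Greedy choice of cores, with relative spreadness above each nonempty core and absolute
spreadness above the empty core. -/
theorem exists_cores {q : ℝ} (hq : 0 ≤ q) {h : Finset α → ℝ} (hh : ∀ S, 0 ≤ h S)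
    (N θ : ℝ) (hN : 0 < N) (hθ : 0 < θ) (s : ℕ) (R : Finset (Finset α)) :
    ∃ core : Finset α → Finset α, (∀ S ∈ R, core S ⊆ S) ∧
      (∀ S₀ ∈ R, (core S₀).Nonempty →
        θ ≤ deg q h (R.filter fun S => core S = core S₀) (core S₀) * wgt N s (core S₀).card ∧
        ∀ J : Finset α, core S₀ ⊆ J →
          deg q h (R.filter fun S => core S = core S₀) J * wgt N s J.card
            ≤ deg q h (R.filter fun S => core S = core S₀) (core S₀)
              * wgt N s (core S₀).card) ∧
      (∀ J : Finset α, J.Nonempty →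
        deg q h (R.filter fun S => core S = ∅) J * wgt N s J.card ≤ θ) := by
  induction R using Finset.strongInduction with
  | H R ih =>
    by_cases hex : ∃ J : Finset α, J.Nonempty ∧ θ ≤ deg q h R J * wgt N s J.card
    · obtain ⟨J₁, hJ₁, hJ₁θ⟩ := hex
      obtain ⟨C, hC, hCmax⟩ := exists_max_image
        (univ.filter fun J : Finset α => J.Nonempty) (fun J => deg q h R J * wgt N s J.card)
        ⟨J₁, mem_filter.2 ⟨mem_univ _, hJ₁⟩⟩
      rw [mem_filter] at hC
      have hCθ : θ ≤ deg q h R C * wgt N s C.card :=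
        hJ₁θ.trans (hCmax J₁ (mem_filter.2 ⟨mem_univ _, hJ₁⟩))
      obtain ⟨S₁, hS₁, hCS₁⟩ : ∃ S ∈ R, C ⊆ S := by
        by_contra hne
        push Not at hne
        have h0 : deg q h R C = 0 := sum_eq_zero fun S hS => by
          rw [mem_filter] at hS; exact absurd hS.2 (hne S hS.1)
        rw [h0, zero_mul] at hCθ
        linarith
      obtain ⟨core', h1, h2, h3⟩ := ih (R.filter fun S => ¬ C ⊆ S)
        (filter_ssubset.2 ⟨S₁, hS₁, not_not.2 hCS₁⟩)
      refine ⟨fun S => if C ⊆ S then C else core' S, ?_, ?_, ?_⟩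
      · intro S hS
        by_cases hc : C ⊆ S
        · simp [hc]
        · simpa [hc] using h1 S (mem_filter.2 ⟨hS, hc⟩)
      · intro S₀ hS₀ hne
        by_cases hc : C ⊆ S₀
        · simp only [if_pos hc] at hne ⊢
          have e : R.filter (fun S => (if C ⊆ S then C else core' S) = C)
              = R.filter fun S => C ⊆ S := by
            refine filter_congr fun S hS => ⟨fun e => ?_, fun e => if_pos e⟩
            by_contra hn
            rw [if_neg hn] at e
            exact hn (e ▸ h1 S (mem_filter.2 ⟨hS, hn⟩))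
          have eJ : ∀ J : Finset α, C ⊆ J → deg q h (R.filter fun S => C ⊆ S) J = deg q h R J := by
            intro J hJ
            unfold deg
            refine sum_congr ?_ fun _ _ => rfl
            rw [filter_filter]
            exact filter_congr fun S _ => ⟨fun x => x.2, fun x => ⟨hJ.trans x, x⟩⟩
          rw [e, eJ C (subset_refl _)]
          refine ⟨hCθ, fun J hJ => ?_⟩
          rw [eJ J hJ]
          exact hCmax J (mem_filter.2 ⟨mem_univ _, hne.mono hJ⟩)
        · simp only [if_neg hc] at hne ⊢
          have hmem : S₀ ∈ R.filter fun S => ¬ C ⊆ S := mem_filter.2 ⟨hS₀, hc⟩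
          have e : R.filter (fun S => (if C ⊆ S then C else core' S) = core' S₀)
              = (R.filter fun S => ¬ C ⊆ S).filter fun S => core' S = core' S₀ := by
            rw [filter_filter]
            refine filter_congr fun S _ => ?_
            by_cases hS : C ⊆ S
            · simp only [if_pos hS]
              constructor
              · intro e; exact absurd (e ▸ h1 S₀ hmem) hc
              · intro e; exact absurd hS e.1
            · simp [hS]
          rw [e]
          exact h2 S₀ hmem hne
      · intro J hJ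
        have e : R.filter (fun S => (if C ⊆ S then C else core' S) = ∅)
            = (R.filter fun S => ¬ C ⊆ S).filter fun S => core' S = ∅ := by
          rw [filter_filter]
          refine filter_congr fun S _ => ?_
          by_cases hS : C ⊆ S
          · simp [hS, hC.2.ne_empty]
          · simp [hS]
        rw [e]
        exact h3 J hJ
    · push Not at hex
      refine ⟨fun _ => ∅, fun S _ => empty_subset _, ?_, ?_⟩
      · intro S₀ _ hne; simp at hne
      · intro J hJ
        simpa using (hex J hJ).le

omit [Fintype α] [DecidableEq α] in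
lemma sum_wgt_ratio {N : ℝ} (hN : 0 < N) (s i : ℕ) (hi : i ≤ s) (p : ℕ) (hp : (p : ℝ) ≤ N) :
    ∑ j ∈ range (s - i + 1), (p.choose j : ℝ) * (wgt N s i / wgt N s (i + j))
      ≤ 2 ^ (s - i) := by
  have key : ∀ j ∈ range (s - i + 1), (p.choose j : ℝ) * (wgt N s i / wgt N s (i + j))
      ≤ ((s - i).choose j : ℝ) * ((p : ℝ) / N) ^ j := by
    intro j hj
    rw [mem_range] at hj
    set r := s - i with hr
    have hjr : j ≤ r := by omega
    have e : s - (i + j) = r - j := by omega
    have h1 : ((r.choose j : ℝ) * (j.factorial : ℝ)) * ((r - j).factorial : ℝ) = (r.factorial : ℝ) := by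
      exact_mod_cast Nat.choose_mul_factorial_mul_factorial hjr
    have h2 : (p.choose j : ℝ) * (j.factorial : ℝ) ≤ (p : ℝ) ^ j := by
      have := Nat.descFactorial_le_pow p j
      rw [Nat.descFactorial_eq_factorial_mul_choose, mul_comm] at this
      exact_mod_cast this
    have e2 : wgt N s i / wgt N s (i + j)
        = ((r.choose j : ℝ) * (j.factorial : ℝ)) / N ^ j := by
      unfold wgt
      rw [e, ← hr, ← h1, pow_add]
      have : (N : ℝ) ^ i ≠ 0 := pow_ne_zero _ hN.ne'
      have : (N : ℝ) ^ j ≠ 0 := pow_ne_zero _ hN.ne'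
      have : ((r - j).factorial : ℝ) ≠ 0 := by positivity
      have : (s.factorial : ℝ) ≠ 0 := by positivity
      field_simp
    rw [e2, div_pow, ← mul_div_assoc, ← mul_div_assoc]
    apply div_le_div_of_nonneg_right ?_ (pow_nonneg hN.le _)
    calc (p.choose j : ℝ) * ((r.choose j : ℝ) * (j.factorial : ℝ))
        = (r.choose j : ℝ) * ((p.choose j : ℝ) * (j.factorial : ℝ)) := by ring
      _ ≤ (r.choose j : ℝ) * (p : ℝ) ^ j := mul_le_mul_of_nonneg_left h2 (by positivity)
  refine (sum_le_sum key).trans ?_
  have h3 : ∑ j ∈ range (s - i + 1), ((s - i).choose j : ℝ) * ((p : ℝ) / N) ^ j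
      = ((p : ℝ) / N + 1) ^ (s - i) := by
    rw [add_pow]
    refine sum_congr rfl fun j _ => ?_
    simp [mul_comm]
  rw [h3]
  refine pow_le_pow_left₀ (by positivity) ?_ _
  have : (p : ℝ) / N ≤ 1 := (div_le_one hN).2 hp
  linarith

omit [Fintype α] in
/-- Relative spreadness bounds the cost of adding one more set over a prefix. -/
lemma sum_new_spread {q : ℝ} (hq : 0 ≤ q) {h : Finset α → ℝ} (hh : ∀ S, 0 ≤ h S) [Fintype α]
    {N : ℝ} (hN : 0 < N) (s : ℕ) (R : Finset (Finset α)) (C P : Finset α) (hCP : C ⊆ P)
    (hR : ∀ S ∈ R, C ⊆ S ∧ S.card = s) (hC : C.card ≤ s) (hP : ((P \ C).card : ℝ) ≤ N) (D : ℝ)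
    (hD : 0 ≤ D) (hspread : ∀ J, C ⊆ J → J ≠ C → deg q h R J * wgt N s J.card ≤ D) :
    ∑ S ∈ R, h S * q ^ (S \ P).card
      ≤ deg q h R C + D / wgt N s C.card * 2 ^ (s - C.card) := by
  refine (sum_new_le hq hh R C P hCP fun S hS => (hR S hS).1).trans ?_
  rw [← add_sum_erase _ _ (empty_mem_powerset _), union_empty]
  refine add_le_add le_rfl ?_
  set i := C.card
  set p := (P \ C).card
  have hdisj : ∀ J ∈ (P \ C).powerset, (C ∪ J).card = i + J.card := by
    intro J hJ
    rw [mem_powerset] at hJ
    exact card_union_of_disjoint (disjoint_sdiff.mono_right hJ)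
  have hterm : ∀ J ∈ ((P \ C).powerset).erase ∅, deg q h R (C ∪ J)
      ≤ if J.card ≤ s - i then D / wgt N s (i + J.card) else 0 := by
    intro J hJ
    rw [mem_erase] at hJ
    split_ifs with hle
    · rw [le_div_iff₀ (wgt_pos hN _ _), ← hdisj J hJ.2]
      refine hspread _ subset_union_left fun e => hJ.1 ?_
      have := hdisj J hJ.2
      rw [e] at this
      exact card_eq_zero.1 (by omega)
    · refine le_of_eq (sum_eq_zero fun S hS => ?_)
      rw [mem_filter] at hS
      have := card_le_card hS.2
      rw [hdisj J hJ.2, (hR S hS.1).2] at this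
      omega
  calc ∑ J ∈ ((P \ C).powerset).erase ∅, deg q h R (C ∪ J)
      ≤ ∑ J ∈ ((P \ C).powerset).erase ∅, if J.card ≤ s - i then D / wgt N s (i + J.card) else 0 :=
        sum_le_sum hterm
    _ ≤ ∑ J ∈ (P \ C).powerset, if J.card ≤ s - i then D / wgt N s (i + J.card) else 0 := by
        refine sum_le_sum_of_subset_of_nonneg (erase_subset _ _) fun J _ _ => ?_
        split_ifs
        · exact div_nonneg hD (wgt_pos hN _ _).le
        · exact le_rfl
    _ = ∑ j ∈ range (p + 1), (p.choose j : ℝ) * (if j ≤ s - i then D / wgt N s (i + j) else 0) := by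
        rw [sum_powerset_apply_card (f := fun j => if j ≤ s - i then D / wgt N s (i + j) else 0)]
        simp [nsmul_eq_mul, p]
    _ ≤ ∑ j ∈ range (p + 1) with j ≤ s - i, (p.choose j : ℝ) * (D / wgt N s (i + j)) := by
        rw [sum_filter]
        exact le_of_eq (sum_congr rfl fun j _ => by split_ifs <;> simp)
    _ ≤ ∑ j ∈ range (s - i + 1), (p.choose j : ℝ) * (D / wgt N s (i + j)) := by
        refine sum_le_sum_of_subset_of_nonneg (fun j hj => ?_) fun j _ _ =>
          mul_nonneg (by positivity) (div_nonneg hD (wgt_pos hN _ _).le)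
        rw [mem_filter] at hj
        rw [mem_range]
        omega
    _ = D / wgt N s i * ∑ j ∈ range (s - i + 1), (p.choose j : ℝ) * (wgt N s i / wgt N s (i + j)) := by
        rw [mul_sum]
        refine sum_congr rfl fun j _ => ?_
        have := (wgt_pos hN s i).ne'
        have := (wgt_pos hN s (i + j)).ne'
        field_simp
    _ ≤ D / wgt N s i * 2 ^ (s - i) :=
        mul_le_mul_of_nonneg_left (sum_wgt_ratio hN s i hC p hP)
          (div_nonneg hD (wgt_pos hN _ _).le)

end Vale.Agent.P034
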