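import Vale.Agent.P034.Lift

open Finset

namespace Vale.Agent.P034

variable {α : Type*} [Fintype α] [DecidableEq α]

/-- The potential weight `∑ g(S) x^|S|`. -/
def pot (x : ℝ) (g : Finset α → ℝ) : ℝ := ∑ S, g S * x ^ S.card

omit [DecidableEq α] in
lemma pot_nonneg {x : ℝ} (hx : 0 ≤ x) {g : Finset α → ℝ} (hg : ∀ S, 0 ≤ g S) : 0 ≤ pot x g :=
  sum_nonneg fun S _ => mul_nonneg (hg S) (pow_nonneg hx _)

lemma wgt_le (t s i : ℕ) (ht : 1 ≤ t) (hs : s ≤ t) (hi : i ≤ s) :
    wgt (128 * (t : ℝ)) s i ≤ 2 ^ (13 * t) := by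
  set N : ℝ := 128 * (t : ℝ) with hN
  have ht' : (1 : ℝ) ≤ t := by exact_mod_cast ht
  have hN0 : 0 ≤ N := by positivity
  have h1 : wgt N s i ≤ N ^ s / (s.factorial : ℝ) := by
    unfold wgt
    refine div_le_div_of_nonneg_right ?_ (by positivity)
    calc N ^ i * ((s - i).factorial : ℝ) ≤ N ^ i * N ^ (s - i) := by
          refine mul_le_mul_of_nonneg_left ?_ (by positivity)
          have : ((s - i).factorial : ℝ) ≤ ((s - i : ℕ) : ℝ) ^ (s - i) := by
            exact_mod_cast Nat.factorial_le_pow (s - i)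
          refine this.trans (pow_le_pow_left₀ (by positivity) ?_ _)
          have : ((s - i : ℕ) : ℝ) ≤ t := by exact_mod_cast (Nat.sub_le s i).trans hs
          rw [hN]; linarith
      _ = N ^ s := by rw [← pow_add]; congr 1; omega
  refine h1.trans ?_
  have h2 := Real.pow_div_factorial_le_exp (x := N / 32) (by positivity) s
  have h3 : N ^ s / (s.factorial : ℝ) = 32 ^ s * ((N / 32) ^ s / (s.factorial : ℝ)) := by
    rw [div_pow]; field_simp
  rw [h3]
  have h4 : Real.exp (N / 32) ≤ 2 ^ (8 * t) := by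
    rw [hN, show 128 * (t : ℝ) / 32 = ((4 * t : ℕ) : ℝ) * 1 by push_cast; ring, Real.exp_nat_mul,
      show 8 * t = 2 * (4 * t) by ring, pow_mul (2 : ℝ) 2]
    exact pow_le_pow_left₀ (Real.exp_pos _).le (show Real.exp 1 ≤ (2 : ℝ) ^ 2 by have := Real.exp_one_lt_three; norm_num; linarith) _
  calc (32 : ℝ) ^ s * ((N / 32) ^ s / (s.factorial : ℝ)) ≤ 32 ^ s * 2 ^ (8 * t) :=
        mul_le_mul_of_nonneg_left (h2.trans h4) (by positivity)
    _ ≤ 2 ^ (5 * t) * 2 ^ (8 * t) := by
        refine mul_le_mul_of_nonneg_right ?_ (by positivity)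
        rw [show (32 : ℝ) = 2 ^ 5 by norm_num, ← pow_mul]
        exact pow_le_pow_right₀ (by norm_num) (by omega)
    _ = 2 ^ (13 * t) := by rw [← pow_add]; congr 1; ring

set_option maxHeartbeats 1000000 in
/-- One scale step: halve `t`, paying a small cost and losing little weight. -/
theorem level {q : ℝ} (hq : 0 ≤ q) (t : ℕ) (ht : 1 ≤ t) (g : Finset α → ℝ) (hg : ∀ S, 0 ≤ g S)
    (hg0 : g ∅ = 0) (hlow : ∀ S, g S ≠ 0 → (1 / 2 : ℝ) ^ (64 * t) ≤ g S)
    (hQ : pot (2 ^ 70 * q) g ≤ 1) :
    ∃ (g' : Finset α → ℝ) (𝒢 : Finset (Finset α)), (∀ S, 0 ≤ g' S) ∧ g' ∅ = 0 ∧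
      (∀ S, g' S ≠ 0 → (1 / 2 : ℝ) ^ (32 * t) ≤ g' S) ∧
      pot (2 ^ 70 * q) g' ≤ pot (2 ^ 70 * q) g ∧ cost q 𝒢 ≤ 4 * (1 / 2 : ℝ) ^ t ∧
      ∀ H : Finset α, Hit 𝒢 H ∨ ∀ a ≤ (1 : ℝ), a ≤ below g H →
        a - (pot (2 ^ 70 * q) g - pot (2 ^ 70 * q) g') - (1 / 2 : ℝ) ^ (2 * t) ≤ below g' H := by
  obtain ⟨B, hB⟩ : ∃ B : ℝ, B = 2 ^ 70 := ⟨_, rfl⟩
  rw [← hB] at hQ ⊢
  have hB1 : (1 : ℝ) ≤ B := by rw [hB]; exact one_le_pow₀ (by norm_num)
  have hBq : 0 ≤ B * q := mul_nonneg (by linarith) hq
  set N : ℝ := 128 * (t : ℝ) with hN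
  have ht' : (1 : ℝ) ≤ t := by exact_mod_cast ht
  have hN0 : 0 < N := by positivity
  set η : ℝ := (1 / 2) ^ (4 * t) with hη
  have hη0 : 0 < η := by positivity
  let R : ℕ → Finset (Finset α) := fun s => univ.filter fun S => g S ≠ 0 ∧ S.card = s
  let θ : ℕ → ℝ := fun s => η / 2 * (1 / 8) ^ s
  have hθ : ∀ s, 0 < θ s := fun s => by positivity
  choose core hcore hsp hsp0 using fun s => exists_cores hq hg N (θ s) hN0 (hθ s) s (R s)
  let cl : ℕ → Finset α → Finset (Finset α) := fun s C => (R s).filter fun S => core s S = C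
  let hB' : ℕ → Finset α → ℝ := fun s C => ∑ S ∈ cl s C, g S * (B * q) ^ (s - C.card)
  let Nv : ℕ → Finset α → ℝ := fun s C => hB' s C + (if C = ∅ then η / 2 else 0)
  let Im : ℕ → Finset (Finset α) := fun s => (R s).image (core s)
  let K : ℕ → Finset α → ℕ := fun s C => 80 * t / (s - C.card) + 1
  let xG : Finset α → ℝ := fun U => ∑ s ∈ Icc 1 t, ∑ C ∈ Im s,
    if C.card < s then tup g (cl s C) (Nv s C) (K s C) U else 0
  let g' : Finset α → ℝ := fun C => if C = ∅ then 0 else ∑ s ∈ Icc 1 t, hB' s C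
  let c₀ : ℝ := ∑ s ∈ Icc 1 t, hB' s ∅
  have hcl : ∀ s C, ∀ S ∈ cl s C, C ⊆ S ∧ S.card = s := by
    intro s C S hS
    simp only [cl, mem_filter] at hS
    refine ⟨hS.2 ▸ hcore s S hS.1, ?_⟩
    exact ((mem_filter.1 hS.1).2).2
  have hhB : ∀ s C, 0 ≤ hB' s C := fun s C =>
    sum_nonneg fun S _ => mul_nonneg (hg S) (pow_nonneg hBq _)
  have hdeg : ∀ s C, hB' s C = B ^ (s - C.card) * deg q g (cl s C) C := by
    intro s C
    unfold deg
    rw [filter_true_of_mem (fun S hS => (hcl s C S hS).1), mul_sum]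
    refine sum_congr rfl fun S hS => ?_
    rw [(hcl s C S hS).2, mul_pow]
    ring
  have hpos : ∀ s, ∀ C ∈ Im s, C ≠ ∅ → C.card ≤ s ∧ θ s / wgt N s C.card ≤ hB' s C ∧
      ∀ J, C ⊆ J → deg q g (cl s C) J * wgt N s J.card ≤ deg q g (cl s C) C * wgt N s C.card := by
    intro s C hC hne
    simp only [Im, mem_image] at hC
    obtain ⟨S₀, hS₀, rfl⟩ := hC
    obtain ⟨h1, h2⟩ := hsp s S₀ hS₀ (nonempty_iff_ne_empty.2 hne)
    refine ⟨(card_le_card (hcore s S₀ hS₀)).trans_eq ((mem_filter.1 hS₀).2).2, ?_, h2⟩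
    rw [hdeg, div_le_iff₀ (wgt_pos hN0 _ _)]
    refine h1.trans (mul_le_mul_of_nonneg_right ?_ (wgt_pos hN0 _ _).le)
    exact le_mul_of_one_le_left (deg_nonneg hq hg _ _) (one_le_pow₀ hB1)
  have hNv : ∀ s, ∀ C ∈ Im s, 0 < Nv s C := by
    intro s C hC
    rcases eq_or_ne C ∅ with rfl | hne
    · simp only [Nv, if_true]
      linarith [hhB s ∅]
    · simp only [Nv, if_neg hne, add_zero]
      exact lt_of_lt_of_le (div_pos (hθ s) (wgt_pos hN0 _ _)) (hpos s C hC hne).2.1
  have hxG : ∀ U, 0 ≤ xG U := by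
    intro U
    refine sum_nonneg fun s _ => sum_nonneg fun C hC => ?_
    split_ifs
    · exact tup_nonneg hg (hNv s C hC) _ _
    · exact le_rfl
  -- the cost of the lifted fractional cover
  have hlift : ∀ s ∈ Icc 1 t, ∀ C ∈ Im s, C.card < s →
      ∑ U, q ^ U.card * tup g (cl s C) (Nv s C) (K s C) U
        ≤ (1 / 2) ^ (160 * t) * ∑ S ∈ cl s C, g S * (B * q) ^ S.card := by
    intro s hs C hC hCs
    rw [mem_Icc] at hs
    set r := s - C.card with hr
    have hr1 : 1 ≤ r := by omega
    have hKr : K s C * r ≤ 128 * t := by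
      simp only [K, ← hr, add_mul, one_mul]
      have := Nat.div_mul_le_self (80 * t) r
      omega
    have hstep : ∀ P, C ⊆ P → (P \ C).card ≤ K s C * (s - C.card) →
        ∑ S ∈ cl s C, g S * q ^ (S \ P).card ≤ (1 / 4) ^ r * Nv s C := by
      intro P hCP hP
      have hP' : ((P \ C).card : ℝ) ≤ N := by
        rw [hN, ← hr] at *
        exact_mod_cast hP.trans hKr
      have hb : (2 : ℝ) * 2 ^ r * 4 ^ r ≤ B ^ r := by
        calc (2 : ℝ) * 2 ^ r * 4 ^ r ≤ 2 ^ r * 2 ^ r * 4 ^ r := by
              refine mul_le_mul_of_nonneg_right (mul_le_mul_of_nonneg_right ?_ (by positivity)) (by positivity)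
              calc (2 : ℝ) = 2 ^ 1 := (pow_one 2).symm
                _ ≤ 2 ^ r := pow_le_pow_right₀ (by norm_num) hr1
          _ = 16 ^ r := by rw [← mul_pow, ← mul_pow]; norm_num
          _ ≤ B ^ r := pow_le_pow_left₀ (by norm_num) (by rw [hB]; norm_num) _
      have h4 : (0 : ℝ) < 4 ^ r := by positivity
      have h2 : (1 : ℝ) ≤ 2 ^ r := one_le_pow₀ (by norm_num)
      rw [one_div_pow, one_div_mul_eq_div, le_div_iff₀ h4]
      have hd0 := deg_nonneg hq hg (cl s C) C
      rcases eq_or_ne C ∅ with hCe | hne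
      · subst hCe
        have hs0 : r = s := by simp [hr]
        have h := sum_new_spread hq hg hN0 s (cl s ∅) ∅ P hCP (hcl s ∅) (by simp) hP' (θ s)
          (hθ s).le (fun J _ hJ => hsp0 s J (nonempty_iff_ne_empty.2 hJ))
        have hw : wgt N s (∅ : Finset α).card = 1 := by simp [wgt, Nat.factorial_ne_zero]
        rw [hw, div_one, ← hr] at h
        have hθ4 : θ s * 2 ^ r * 4 ^ r = η / 2 := by
          simp only [θ, hs0, mul_assoc, ← mul_pow]; norm_num
        simp only [Nv, if_true, hdeg, ← hr]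
        calc (∑ S ∈ cl s ∅, g S * q ^ (S \ P).card) * 4 ^ r
            ≤ (deg q g (cl s ∅) ∅ + θ s * 2 ^ r) * 4 ^ r := mul_le_mul_of_nonneg_right h h4.le
          _ = 4 ^ r * deg q g (cl s ∅) ∅ + η / 2 := by rw [← hθ4]; ring
          _ ≤ _ := by
              refine add_le_add (mul_le_mul_of_nonneg_right ?_ hd0) le_rfl
              exact le_trans (by nlinarith) hb
      · obtain ⟨hCle, -, hspr⟩ := hpos s C hC hne
        have h := sum_new_spread hq hg hN0 s (cl s C) C P hCP (hcl s C) hCle hP'
          (deg q g (cl s C) C * wgt N s C.card) (mul_nonneg hd0 (wgt_pos hN0 _ _).le)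
          (fun J hJ _ => hspr J hJ)
        rw [mul_div_assoc, div_self (wgt_pos hN0 s C.card).ne', mul_one, ← hr] at h
        simp only [Nv, if_neg hne, add_zero, hdeg, ← hr]
        calc (∑ S ∈ cl s C, g S * q ^ (S \ P).card) * 4 ^ r
            ≤ (deg q g (cl s C) C + deg q g (cl s C) C * 2 ^ r) * 4 ^ r :=
              mul_le_mul_of_nonneg_right h h4.le
          _ ≤ 2 * 2 ^ r * deg q g (cl s C) C * 4 ^ r :=
              mul_le_mul_of_nonneg_right (by nlinarith) h4.le
          _ = 2 * 2 ^ r * 4 ^ r * deg q g (cl s C) C := by ring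
          _ ≤ _ := mul_le_mul_of_nonneg_right hb hd0
    refine (tup_cost hq hg (hNv s C hC) s C (hcl s C) ((1 / 4) ^ r) (by positivity) (K s C)
      hstep (K s C) le_rfl).trans ?_
    refine mul_le_mul ?_ (sum_le_sum fun S _ => mul_le_mul_of_nonneg_left
      (pow_le_pow_left₀ hq (le_mul_of_one_le_left hq hB1) _) (hg S))
      (sum_nonneg fun S _ => mul_nonneg (hg S) (pow_nonneg hq _)) (by positivity)
    rw [← pow_mul, show (1 / 4 : ℝ) = (1 / 2) ^ 2 by norm_num, ← pow_mul]
    refine pow_le_pow_of_le_one (by norm_num) (by norm_num) ?_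
    have hdiv := Nat.lt_div_mul_add (a := 80 * t) (b := r) (by omega)
    simp only [K, ← hr]
    rw [mul_add, mul_one, mul_comm r]
    omega
  have hgroup : ∀ (s : ℕ) (F : Finset α → ℝ), ∑ C ∈ Im s, ∑ S ∈ cl s C, F S = ∑ S ∈ R s, F S :=
    fun s F => sum_fiberwise_of_maps_to (fun S hS => mem_image_of_mem _ hS) F
  have hsizes : ∀ F : Finset α → ℝ, ∑ s ∈ Icc 1 t, ∑ S ∈ R s, F S
      = ∑ S with g S ≠ 0 ∧ S.card ≤ t, F S := by
    intro F
    rw [← sum_fiberwise_of_maps_to (s := univ.filter fun S => g S ≠ 0 ∧ S.card ≤ t)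
      (t := Icc 1 t) (g := card) (fun S hS => ?_)]
    · refine sum_congr rfl fun s hs => sum_congr ?_ fun _ _ => rfl
      rw [mem_Icc] at hs
      simp only [R, filter_filter]
      exact filter_congr fun S _ => ⟨fun e => ⟨⟨e.1, e.2 ▸ hs.2⟩, e.2⟩, fun e => ⟨e.1.1, e.2⟩⟩
    · rw [mem_filter] at hS
      rw [mem_Icc]
      refine ⟨?_, hS.2.2⟩
      rcases Nat.eq_zero_or_pos S.card with h | h
      · exact absurd (card_eq_zero.1 h ▸ hg0) hS.2.1
      · exact h
  have hcostG : ∑ U, xG U * q ^ U.card ≤ (1 / 2) ^ (160 * t) * pot (B * q) g := by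
    simp only [xG, sum_mul, ite_mul, zero_mul]
    rw [sum_comm]
    calc ∑ s ∈ Icc 1 t, ∑ U : Finset α, ∑ C ∈ Im s,
          (if C.card < s then tup g (cl s C) (Nv s C) (K s C) U * q ^ U.card else 0)
        ≤ ∑ s ∈ Icc 1 t, ∑ C ∈ Im s, (1 / 2) ^ (160 * t) * ∑ S ∈ cl s C, g S * (B * q) ^ S.card := by
          refine sum_le_sum fun s hs => ?_
          rw [sum_comm]
          refine sum_le_sum fun C hC => ?_
          split_ifs with hCs
          · simp only [mul_comm _ (q ^ _)]
            exact hlift s hs C hC hCs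
          · rw [sum_const_zero]
            exact mul_nonneg (by positivity)
              (sum_nonneg fun S _ => mul_nonneg (hg S) (pow_nonneg hBq _))
      _ ≤ _ := by
          simp only [← mul_sum, hgroup, hsizes]
          exact mul_le_mul_of_nonneg_left (sum_le_sum_of_subset_of_nonneg (subset_univ _)
            fun S _ _ => mul_nonneg (hg S) (pow_nonneg hBq _)) (by positivity)
  have hg'nn : ∀ C, 0 ≤ g' C := by
    intro C; simp only [g']
    split_ifs
    · exact le_rfl
    · exact sum_nonneg fun s _ => hhB s C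
  have hg'low : ∀ C, g' C ≠ 0 → (1 / 2 : ℝ) ^ (32 * t) ≤ g' C := by
    intro C hC
    simp only [g'] at hC ⊢
    split_ifs at hC ⊢ with hne
    · exact absurd rfl hC
    obtain ⟨s, hs, hs0⟩ := exists_ne_zero_of_sum_ne_zero hC
    obtain ⟨S, hS, -⟩ := exists_ne_zero_of_sum_ne_zero hs0
    simp only [cl, mem_filter] at hS
    obtain ⟨hCle, hlo, -⟩ := hpos s C (mem_image.2 ⟨S, hS.1, hS.2⟩) hne
    refine le_trans (le_trans ?_ hlo) (single_le_sum (fun s' _ => hhB s' C) hs)
    rw [mem_Icc] at hs
    rw [le_div_iff₀ (wgt_pos hN0 _ _)]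
    refine (mul_le_mul_of_nonneg_left (wgt_le t s C.card ht hs.2 hCle) (by positivity)).trans ?_
    simp only [θ, hη]
    rw [show (1 / 8 : ℝ) = (1 / 2) ^ 3 by norm_num, ← pow_mul, div_eq_mul_one_div ((1 / 2 : ℝ) ^ (4 * t)) 2,
      mul_assoc, ← pow_succ', ← pow_add]
    have e : (1 / 2 : ℝ) ^ (32 * t) * 2 ^ (13 * t) = (1 / 2) ^ (19 * t) := by
      rw [show 32 * t = 19 * t + 13 * t by ring, pow_add, mul_assoc, ← mul_pow]
      norm_num
    rw [e]
    exact pow_le_pow_of_le_one (by norm_num) (by norm_num) (by omega)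
  have hQ' : pot (B * q) g' + c₀ ≤ pot (B * q) g := by
    have e1 : ∀ s C, hB' s C * (B * q) ^ C.card = ∑ S ∈ cl s C, g S * (B * q) ^ S.card := by
      intro s C
      rw [sum_mul]
      refine sum_congr rfl fun S hS => ?_
      have := card_le_card (hcl s C S hS).1
      rw [(hcl s C S hS).2] at this ⊢
      rw [mul_assoc, ← pow_add]
      congr 2
      omega
    have e2 : pot (B * q) g' + c₀ = ∑ s ∈ Icc 1 t, ∑ S ∈ R s, g S * (B * q) ^ S.card := by
      have e3 : ∀ C, g' C * (B * q) ^ C.card + (if C = ∅ then c₀ else 0)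
          = ∑ s ∈ Icc 1 t, hB' s C * (B * q) ^ C.card := by
        intro C
        simp only [g']
        split_ifs with h
        · subst h; simp [c₀]
        · rw [sum_mul, add_zero]
      have e4 : c₀ = ∑ C : Finset α, if C = ∅ then c₀ else 0 := by simp
      unfold pot
      rw [e4, ← sum_add_distrib, sum_congr rfl fun C _ => e3 C, sum_comm]
      refine sum_congr rfl fun s _ => ?_
      simp only [e1]
      exact sum_fiberwise (R s) (core s) fun S => g S * (B * q) ^ S.card
    rw [e2, hsizes]
    exact sum_le_sum_of_subset_of_nonneg (subset_univ _)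
      fun S _ _ => mul_nonneg (hg S) (pow_nonneg hBq _)
  have hc₀ : 0 ≤ c₀ := sum_nonneg fun s _ => hhB s ∅
  -- the three parts of the cover
  let small : Finset (Finset α) := univ.filter fun S => g S ≠ 0 ∧ S.card ≤ t
  let big : Finset (Finset α) := univ.filter fun S => g S ≠ 0 ∧ t < S.card
  set D : ℝ := 2 ^ t with hD
  let heavy : Finset (Finset α) := univ.filter fun J => D < deg q g small J
  set M : ℕ := 2 ^ (65 * t) with hM
  set ok : Finset α → Prop := fun V => ∀ J, J ⊆ V → deg q g small J ≤ D with hok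
  haveI : DecidablePred ok := Classical.decPred _
  set lam : ℝ := 2 ^ (144 * t) with hlam
  obtain ⟨𝒢, hcov, hcost⟩ := rounding q hq id (fun U => lam * xG U)
    (fun U => mul_nonneg (by positivity) (hxG U)) univ
    ((certs small ok M).filter fun V => η / 2 ≤ ∑ U with U ⊆ V, xG U)
  refine ⟨g', big ∪ heavy ∪ 𝒢, hg'nn, by simp [g'], hg'low, le_trans (by linarith) hQ', ?_, ?_⟩
  · have hQ0 : 0 ≤ pot (B * q) g := pot_nonneg hBq hg
    have hbig : cost q big ≤ (1 / 2) ^ t := by
      have h1 : (1 / 2 : ℝ) ^ (64 * t) * B ^ t * cost q big ≤ pot (B * q) g := by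
        unfold cost pot
        rw [mul_sum]
        refine le_trans (sum_le_sum fun S hS => ?_) (sum_le_sum_of_subset_of_nonneg (subset_univ _)
          fun S _ _ => mul_nonneg (hg S) (pow_nonneg hBq _))
        simp only [big, mem_filter] at hS
        rw [mul_pow, mul_assoc]
        refine mul_le_mul (hlow S hS.2.1) (mul_le_mul_of_nonneg_right
          (pow_le_pow_right₀ hB1 hS.2.2.le) (pow_nonneg hq _)) (by positivity) (hg S)
      have h2 : (1 / 2 : ℝ) ^ (64 * t) * B ^ t = 2 ^ (6 * t) := by
        rw [hB, ← pow_mul, show 70 * t = 64 * t + 6 * t by ring, pow_add, ← mul_assoc, ← mul_pow]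
        norm_num
      rw [h2] at h1
      rw [one_div_pow, le_div_iff₀ (by positivity)]
      have h3 : (2 : ℝ) ^ t ≤ 2 ^ (6 * t) := pow_le_pow_right₀ (by norm_num) (by omega)
      nlinarith [cost_nonneg hq big]
    have hheavy : cost q heavy ≤ (1 / 2) ^ t := by
      have h1 : D * cost q heavy ≤ pot (B * q) g := by
        unfold cost pot
        rw [mul_sum]
        calc ∑ J ∈ heavy, D * q ^ J.card ≤ ∑ J ∈ heavy, deg q g small J * q ^ J.card := by
              refine sum_le_sum fun J hJ => mul_le_mul_of_nonneg_right ?_ (pow_nonneg hq _)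
              exact (mem_filter.1 hJ).2.le
          _ ≤ ∑ J, deg q g small J * q ^ J.card := sum_le_sum_of_subset_of_nonneg (subset_univ _)
              fun J _ _ => mul_nonneg (deg_nonneg hq hg _ _) (pow_nonneg hq _)
          _ = ∑ S ∈ small, 2 ^ S.card * (g S * q ^ S.card) := by
              unfold deg
              simp only [sum_filter, sum_mul, ite_mul, zero_mul]
              rw [sum_comm]
              refine sum_congr rfl fun S _ => ?_
              rw [← sum_filter, show univ.filter (fun J => J ⊆ S) = S.powerset by ext J; simp,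
                show (2 : ℝ) ^ S.card * (g S * q ^ S.card) = S.powerset.card • (g S * q ^ S.card) by
                  simp, ← sum_const]
              refine sum_congr rfl fun J hJ => ?_
              rw [mul_assoc, ← pow_add, Nat.sub_add_cancel (card_le_card (mem_powerset.1 hJ))]
          _ ≤ ∑ S ∈ small, g S * (B * q) ^ S.card := by
              refine sum_le_sum fun S _ => ?_
              rw [mul_pow, mul_left_comm (g S)]
              exact mul_le_mul_of_nonneg_right (pow_le_pow_left₀ (by norm_num)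
                (by rw [hB]; norm_num) _) (mul_nonneg (hg S) (pow_nonneg hq _))
          _ ≤ _ := sum_le_sum_of_subset_of_nonneg (subset_univ _)
              fun S _ _ => mul_nonneg (hg S) (pow_nonneg hBq _)
      rw [one_div_pow, le_div_iff₀ (by positivity), ← hD]
      linarith
    have hround : cost q 𝒢 ≤ 2 * (1 / 2) ^ t := by
      refine hcost.trans ?_
      have h1 : ∑ U, lam * xG U * q ^ (id U : Finset α).card ≤ (1 / 2) ^ t := by
        simp only [mul_assoc, ← mul_sum, id_eq]
        refine le_trans (mul_le_mul_of_nonneg_left hcostG (by positivity)) ?_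
        refine le_trans (mul_le_mul_of_nonneg_left
          (mul_le_of_le_one_right (by positivity) hQ) (by positivity)) ?_
        rw [hlam, show 160 * t = 144 * t + 16 * t by ring, pow_add, ← mul_assoc, ← mul_pow]
        norm_num
        exact pow_le_pow_of_le_one (by norm_num) (by norm_num) (by omega)
      have hpow : ∀ a b : ℕ, a ≤ b → (2 : ℝ) ^ a ≤ 2 ^ b := fun a b h =>
        pow_le_pow_right₀ (by norm_num) h
      have h2 : ∑ V ∈ certs small ok M, q ^ V.card ≤ Real.exp ((2 : ℝ) ^ ((131 * t + 7))) := by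
        refine (sum_certs_le hq hg ((1 / 2) ^ (64 * t)) D (by positivity) (by positivity)
          (fun S hS => hlow S (mem_filter.1 hS).2.1) t (fun S hS => (mem_filter.1 hS).2.2) ok
          (fun V hV => hV) M M le_rfl).trans ?_
        have e : (2 : ℝ) ^ (M * t) * (D / (1 / 2) ^ (64 * t)) = 2 ^ (M * t + 65 * t) := by
          rw [hD, one_div_pow, div_div_eq_mul_div, div_one, ← pow_add, ← pow_add]
          congr 1; ring
        rw [e]
        calc (1 + (2 : ℝ) ^ (M * t + 65 * t)) ^ M ≤ ((2 : ℝ) ^ (M * t + 65 * t + 1)) ^ M := by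
              refine pow_le_pow_left₀ (by positivity) ?_ _
              rw [pow_succ]
              linarith [one_le_pow₀ (M₀ := ℝ) (a := 2) (by norm_num) (n := M * t + 65 * t)]
          _ ≤ (Real.exp 1) ^ ((M * t + 65 * t + 1) * M) := by
              rw [← pow_mul]
              exact pow_le_pow_left₀ (by norm_num) (by linarith [Real.exp_one_gt_two]) _
          _ = Real.exp (((M * t + 65 * t + 1) * M : ℕ) : ℝ) := by rw [← Real.exp_nat_mul, mul_one]
          _ ≤ _ := by
              rw [Real.exp_le_exp]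
              have key : (M * t + 65 * t + 1) * M ≤ 2 ^ ((131 * t + 7)) := by
                have h1 : t < 2 ^ t := Nat.lt_two_pow_self
                have h5 : (2 : ℕ) ^ t ≤ M := Nat.pow_le_pow_right (by norm_num) (by omega)
                have h6 : 1 ≤ M := Nat.one_le_two_pow
                calc (M * t + 65 * t + 1) * M ≤ (2 ^ t * M * 67) * M := by
                      refine Nat.mul_le_mul_right _ ?_
                      have a1 : M * t ≤ 2 ^ t * M := by rw [mul_comm]; exact Nat.mul_le_mul_right _ h1.le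
                      have a2 : t ≤ 2 ^ t * M := h1.le.trans (Nat.le_mul_of_pos_right _ h6)
                      have a3 : 1 ≤ 2 ^ t * M := Nat.one_le_iff_ne_zero.2 (by positivity)
                      omega
                  _ ≤ 2 ^ t * M * 2 ^ 7 * M := by gcongr; norm_num
                  _ = 2 ^ (t + 65 * t + 7 + 65 * t) := by rw [hM]; simp [pow_add]
                  _ ≤ _ := Nat.pow_le_pow_right (by norm_num) (by omega)
              exact_mod_cast key
      have h3 : ∑ V ∈ (certs small ok M).filter (fun V => η / 2 ≤ ∑ U with U ⊆ V, xG U),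
          q ^ V.card * Real.exp (-(∑ U ∈ univ with id U ⊆ V, lam * xG U)) ≤ (1 / 2) ^ t := by
        calc ∑ V ∈ (certs small ok M).filter (fun V => η / 2 ≤ ∑ U with U ⊆ V, xG U),
              q ^ V.card * Real.exp (-(∑ U ∈ univ with id U ⊆ V, lam * xG U))
            ≤ ∑ V ∈ (certs small ok M).filter (fun V => η / 2 ≤ ∑ U with U ⊆ V, xG U),
              q ^ V.card * Real.exp (-(lam * (η / 2))) := by
              refine sum_le_sum fun V hV => mul_le_mul_of_nonneg_left ?_ (pow_nonneg hq _)
              rw [Real.exp_le_exp, neg_le_neg_iff]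
              simp only [id_eq, ← mul_sum]
              exact mul_le_mul_of_nonneg_left (mem_filter.1 hV).2 (by positivity)
          _ ≤ ∑ V ∈ certs small ok M, q ^ V.card * Real.exp (-(lam * (η / 2))) :=
              sum_le_sum_of_subset_of_nonneg (filter_subset _ _) fun V _ _ => by positivity
          _ ≤ Real.exp ((2 : ℝ) ^ ((131 * t + 7))) * Real.exp (-(lam * (η / 2))) := by
              rw [← sum_mul]
              exact mul_le_mul_of_nonneg_right h2 (Real.exp_pos _).le
          _ ≤ Real.exp (-(t : ℝ)) := by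
              rw [← Real.exp_add, Real.exp_le_exp]
              have a1 : lam * (η / 2) = 2 ^ (140 * t) / 2 := by
                rw [hlam, hη, show 144 * t = 140 * t + 4 * t by ring, pow_add, mul_assoc,
                  mul_div, ← mul_pow]
                norm_num
                ring
              have a2 : (t : ℝ) ≤ 2 ^ ((131 * t + 7)) := by
                refine le_trans ?_ (hpow t ((131 * t + 7)) (by omega))
                exact_mod_cast (Nat.lt_two_pow_self (n := t)).le
              have a3 : (2 : ℝ) ^ ((131 * t + 7)) * 4 ≤ 2 ^ (140 * t) := by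
                rw [show (4 : ℝ) = 2 ^ 2 by norm_num, ← pow_add]
                exact hpow _ _ (by omega)
              rw [a1]
              linarith
          _ ≤ (1 / 2) ^ t := by
              rw [Real.exp_neg, ← mul_one (t : ℝ), Real.exp_nat_mul, ← inv_pow, one_div]
              exact pow_le_pow_left₀ (by positivity)
                (inv_anti₀ (by norm_num) (by linarith [Real.exp_one_gt_two])) _
      linarith
    refine (cost_union_le hq _ _).trans ?_
    have := cost_union_le hq big heavy
    linarith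
  · intro H
    by_cases hhit : Hit (big ∪ heavy ∪ 𝒢) H
    · exact Or.inl hhit
    refine Or.inr fun a ha1 haH => ?_
    have nobig : ∀ S, S ⊆ H → g S ≠ 0 → S ∈ small := by
      intro S hS hgS
      refine mem_filter.2 ⟨mem_univ _, hgS, ?_⟩
      by_contra hlt
      push Not at hlt
      exact hhit ⟨S, by simp [big, hgS, hlt], hS⟩
    have hokH : ok H := by
      intro J hJ
      by_contra hlt
      push Not at hlt
      exact hhit ⟨J, by simp [heavy, hlt], hJ⟩
    obtain ⟨𝒮, h𝒮, h𝒮c, h𝒮a⟩ : ∃ 𝒮 ⊆ small.filter (fun S => S ⊆ H), 𝒮.card ≤ M ∧ a ≤ ∑ S ∈ 𝒮, g S := by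
      by_cases hc : (small.filter fun S => S ⊆ H).card ≤ M
      · refine ⟨_, subset_refl _, hc, haH.trans (le_of_eq ?_)⟩
        unfold below
        refine (sum_subset (fun S hS => ?_) fun S hS hS' => ?_).symm
        · simpa using (mem_filter.1 hS).2
        · by_contra hne
          exact hS' (mem_filter.2 ⟨nobig S (mem_powerset.1 hS) hne, mem_powerset.1 hS⟩)
      · obtain ⟨𝒮, h1, h2⟩ := exists_subset_card_eq (le_of_lt (not_le.1 hc))
        refine ⟨𝒮, h1, h2.le, ha1.trans ?_⟩
        have h3 : (𝒮.card : ℝ) * (1 / 2) ^ (64 * t) ≤ ∑ S ∈ 𝒮, g S := by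
          rw [← nsmul_eq_mul, ← sum_const]
          exact sum_le_sum fun S hS => hlow S (mem_filter.1 (mem_filter.1 (h1 hS)).1).2.1
        refine le_trans ?_ h3
        rw [h2, hM, show 65 * t = t + 64 * t by ring, pow_add]
        push_cast
        rw [mul_assoc, ← mul_pow]
        norm_num
        exact one_le_pow₀ (by norm_num)
    set V := 𝒮.sup id with hV
    have hVH : V ⊆ H := Finset.sup_le fun S hS => (mem_filter.1 (h𝒮 hS)).2
    have hVmem : V ∈ certs small ok M := mem_certs ok (fun U W hUW hW J hJ => hW J (hJ.trans hUW))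
      M 𝒮 (h𝒮.trans (filter_subset _ _)) h𝒮c fun J hJ => hokH J (hJ.trans hVH)
    have hGV : ∑ U with U ⊆ V, xG U < η / 2 := by
      by_contra hge
      push Not at hge
      obtain ⟨U, hU, hUV⟩ := hcov V (mem_filter.2 ⟨hVmem, hge⟩)
      exact hhit ⟨U, mem_union_right _ hU, hUV.trans hVH⟩
    have hclass : ∀ s ∈ Icc 1 t, ∀ C ∈ Im s, ∑ S ∈ cl s C with S ⊆ V, g S
        ≤ (if C ⊆ V then Nv s C else 0) + ∑ U with U ⊆ V,
          (if C.card < s then tup g (cl s C) (Nv s C) (K s C) U else 0) := by
      intro s _ C hC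
      have hnn : ∀ U, 0 ≤ (if C.card < s then tup g (cl s C) (Nv s C) (K s C) U else 0) := by
        intro U; split_ifs
        · exact tup_nonneg hg (hNv s C hC) _ _
        · exact le_rfl
      have hnn' := sum_nonneg fun U (_ : U ∈ univ.filter fun U => U ⊆ V) => hnn U
      rcases le_or_gt (Nv s C) (∑ S ∈ cl s C with S ⊆ V, g S) with hw | hw
      · rcases Nat.lt_or_ge C.card s with hCs | hCs
        · refine le_trans ?_ (le_add_of_nonneg_left ?_)
          · simp only [if_pos hCs]
            refine (tup_cover hg (hNv s C hC) V hw (K s C)).trans (le_of_eq ?_)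
            rw [sum_filter]
            exact sum_congr rfl fun U _ => by split_ifs <;> simp
          · split_ifs
            · exact (hNv s C hC).le
            · exact le_rfl
        · have hne : ((cl s C).filter fun S => S ⊆ V).Nonempty := by
            rw [nonempty_iff_ne_empty]
            intro e
            rw [e, sum_empty] at hw
            linarith [hNv s C hC]
          obtain ⟨S, hS⟩ := hne
          rw [mem_filter] at hS
          have hCV : C ⊆ V := (hcl s C S hS.1).1.trans hS.2
          rw [if_pos hCV]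
          refine le_trans ?_ (le_add_of_nonneg_right hnn')
          calc ∑ S ∈ cl s C with S ⊆ V, g S ≤ ∑ S ∈ cl s C, g S :=
                sum_le_sum_of_subset_of_nonneg (filter_subset _ _) fun S _ _ => hg S
            _ = hB' s C := sum_congr rfl fun S _ => by rw [Nat.sub_eq_zero_of_le hCs, pow_zero, mul_one]
            _ ≤ Nv s C := le_add_of_nonneg_right (by split_ifs <;> positivity)
      · rcases ((cl s C).filter fun S => S ⊆ V).eq_empty_or_nonempty with h0 | ⟨S, hS⟩
        · rw [h0, sum_empty]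
          refine add_nonneg ?_ hnn'
          split_ifs
          · exact (hNv s C hC).le
          · exact le_rfl
        · rw [mem_filter] at hS
          rw [if_pos ((hcl s C S hS.1).1.trans hS.2)]
          linarith
    have hZ : ∑ S ∈ 𝒮, g S ≤ below g' H + c₀ + (t : ℝ) * (η / 2) + η / 2 := by
      calc ∑ S ∈ 𝒮, g S ≤ ∑ S ∈ small with S ⊆ V, g S := by
            refine sum_le_sum_of_subset_of_nonneg (fun S hS => ?_) fun S _ _ => hg S
            exact mem_filter.2 ⟨(mem_filter.1 (h𝒮 hS)).1, le_sup (f := id) hS⟩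
        _ = ∑ s ∈ Icc 1 t, ∑ C ∈ Im s, ∑ S ∈ cl s C with S ⊆ V, g S := by
            simp only [sum_filter, hgroup]
            rw [hsizes]
        _ ≤ ∑ s ∈ Icc 1 t, ∑ C ∈ Im s, ((if C ⊆ V then Nv s C else 0) + ∑ U with U ⊆ V,
              (if C.card < s then tup g (cl s C) (Nv s C) (K s C) U else 0)) :=
            sum_le_sum fun s hs => sum_le_sum fun C hC => hclass s hs C hC
        _ = (∑ s ∈ Icc 1 t, ∑ C ∈ Im s, if C ⊆ V then Nv s C else 0)
              + ∑ U with U ⊆ V, xG U := by
            simp only [sum_add_distrib, xG]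
            congr 1
            rw [sum_comm (s := univ.filter fun U => U ⊆ V)]
            exact sum_congr rfl fun s _ => sum_comm
        _ ≤ (below g' H + c₀ + (t : ℝ) * (η / 2)) + η / 2 := add_le_add ?_ hGV.le
      calc (∑ s ∈ Icc 1 t, ∑ C ∈ Im s, if C ⊆ V then Nv s C else 0)
          ≤ ∑ s ∈ Icc 1 t, ∑ C ∈ H.powerset, Nv s C := by
            refine sum_le_sum fun s _ => ?_
            rw [← sum_filter]
            refine sum_le_sum_of_subset_of_nonneg (fun C hC => ?_) fun C _ _ => ?_
            · exact mem_powerset.2 ((mem_filter.1 hC).2.trans hVH)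
            · exact add_nonneg (hhB s C) (by split_ifs <;> positivity)
        _ = below g' H + c₀ + (t : ℝ) * (η / 2) := by
            simp only [Nv, sum_add_distrib]
            rw [sum_comm]
            have e : ∀ C, ∑ s ∈ Icc 1 t, hB' s C = g' C + if C = ∅ then c₀ else 0 := by
              intro C
              simp only [g']
              split_ifs with h
              · subst h; simp [c₀]
              · simp
            simp only [e, sum_add_distrib, sum_ite_eq', empty_mem_powerset, if_true, below,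
              sum_const, Nat.card_Icc, nsmul_eq_mul]
            norm_num
    have hloss : (t : ℝ) * (η / 2) + η / 2 ≤ (1 / 2) ^ (2 * t) := by
      rw [hη, show 4 * t = 2 * t + 2 * t by ring, pow_add]
      have a0 : (0 : ℝ) < (1 / 2) ^ (2 * t) := by positivity
      have a1 : ((t : ℝ) + 1) * (1 / 2) ^ (2 * t) ≤ 2 := by
        rw [one_div_pow, mul_one_div, div_le_iff₀ (by positivity)]
        have h1 : ((t : ℝ) + 1) ≤ 2 ^ (2 * t) := by
          have : t + 1 ≤ 2 ^ (2 * t) := le_trans (Nat.lt_two_pow_self (n := t))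
            (Nat.pow_le_pow_right (by norm_num) (by omega))
          exact_mod_cast this
        linarith [pow_pos (two_pos (α := ℝ)) (2 * t)]
      nlinarith
    linarith

end Vale.Agent.P034
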