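import Vale.Agent.P034.Greedy

open Finset

namespace Vale.Agent.P034

variable {α : Type*} [Fintype α] [DecidableEq α]

/-- Weights on unions of `m + 1` members of `R`, normalised by `Nv` per additional member. -/
noncomputable def tup (h : Finset α → ℝ) (R : Finset (Finset α)) (Nv : ℝ) : ℕ → Finset α → ℝ
  | 0, U => if U ∈ R then h U else 0
  | m + 1, U => ∑ P, ∑ S ∈ R, if P ∪ S = U then tup h R Nv m P * (h S / Nv) else 0

variable {h : Finset α → ℝ} {R : Finset (Finset α)} {Nv : ℝ}

lemma tup_nonneg (hh : ∀ S, 0 ≤ h S) (hN : 0 < Nv) : ∀ m U, 0 ≤ tup h R Nv m U := by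
  intro m
  induction m with
  | zero =>
    intro U
    simp only [tup]
    split_ifs
    · exact hh U
    · exact le_rfl
  | succ m ih =>
    intro U
    simp only [tup]
    refine sum_nonneg fun P _ => sum_nonneg fun S _ => ?_
    split_ifs
    · exact mul_nonneg (ih P) (div_nonneg (hh S) hN.le)
    · exact le_rfl

lemma tup_support (s : ℕ) (C : Finset α) (hR : ∀ S ∈ R, C ⊆ S ∧ S.card = s) :
    ∀ m U, tup h R Nv m U ≠ 0 → C ⊆ U ∧ (U \ C).card ≤ (m + 1) * (s - C.card) := by
  intro m
  induction m with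
  | zero =>
    intro U hU
    simp only [tup, ne_eq, ite_eq_right_iff, Classical.not_imp] at hU
    obtain ⟨h1, h2⟩ := hR U hU.1
    exact ⟨h1, by rw [card_sdiff_of_subset h1, h2, zero_add, one_mul]⟩
  | succ m ih =>
    intro U hU
    simp only [tup] at hU
    obtain ⟨P, -, hP⟩ := exists_ne_zero_of_sum_ne_zero hU
    obtain ⟨S, hS, hPS⟩ := exists_ne_zero_of_sum_ne_zero hP
    simp only [ne_eq, ite_eq_right_iff, Classical.not_imp, mul_eq_zero, not_or] at hPS
    obtain ⟨h1, h2⟩ := ih P hPS.2.1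
    obtain ⟨h3, h4⟩ := hR S hS
    rw [← hPS.1]
    refine ⟨h1.trans subset_union_left, ?_⟩
    rw [union_sdiff_distrib]
    refine (card_union_le _ _).trans ?_
    rw [card_sdiff_of_subset h3, h4, add_mul _ 1, one_mul]
    omega

lemma tup_sum (F : Finset α → ℝ) (m : ℕ) :
    ∑ U, F U * tup h R Nv (m + 1) U
      = ∑ P, ∑ S ∈ R, F (P ∪ S) * (tup h R Nv m P * (h S / Nv)) := by
  simp only [tup, mul_sum, mul_ite, mul_zero]
  rw [sum_comm]
  refine sum_congr rfl fun P _ => ?_
  rw [sum_comm]
  refine sum_congr rfl fun S _ => ?_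
  rw [sum_ite_eq]
  simp

lemma tup_cost {q : ℝ} (hq : 0 ≤ q) (hh : ∀ S, 0 ≤ h S) (hN : 0 < Nv) (s : ℕ) (C : Finset α)
    (hR : ∀ S ∈ R, C ⊆ S ∧ S.card = s) (ρ : ℝ) (hρ : 0 ≤ ρ) (K : ℕ)
    (hstep : ∀ P, C ⊆ P → (P \ C).card ≤ K * (s - C.card) →
      ∑ S ∈ R, h S * q ^ (S \ P).card ≤ ρ * Nv) :
    ∀ m ≤ K, ∑ U, q ^ U.card * tup h R Nv m U ≤ ρ ^ m * ∑ S ∈ R, h S * q ^ S.card := by
  intro m
  induction m with
  | zero =>
    intro _
    simp only [tup, mul_ite, mul_zero, pow_zero, one_mul]
    rw [sum_ite_mem, univ_inter]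
    exact le_of_eq (sum_congr rfl fun S _ => mul_comm _ _)
  | succ m ih =>
    intro hm
    rw [tup_sum (fun U => q ^ U.card)]
    have hle : ∀ P, ∑ S ∈ R, q ^ (P ∪ S).card * (tup h R Nv m P * (h S / Nv))
        ≤ q ^ P.card * tup h R Nv m P * ρ := by
      intro P
      rcases eq_or_ne (tup h R Nv m P) 0 with h0 | h0
      · simp [h0]
      obtain ⟨h1, h2⟩ := tup_support s C hR m P h0
      have h3 := hstep P h1 (h2.trans (Nat.mul_le_mul_right _ hm))
      have e : ∀ S, q ^ (P ∪ S).card * (tup h R Nv m P * (h S / Nv))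
          = q ^ P.card * tup h R Nv m P / Nv * (h S * q ^ (S \ P).card) := by
        intro S
        rw [← union_sdiff_self_eq_union, card_union_of_disjoint disjoint_sdiff, pow_add]
        field_simp
      simp only [e, ← mul_sum]
      calc q ^ P.card * tup h R Nv m P / Nv * ∑ S ∈ R, h S * q ^ (S \ P).card
          ≤ q ^ P.card * tup h R Nv m P / Nv * (ρ * Nv) := mul_le_mul_of_nonneg_left h3
            (div_nonneg (mul_nonneg (pow_nonneg hq _) (tup_nonneg hh hN _ _)) hN.le)
        _ = _ := by field_simp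
    refine (sum_le_sum fun P _ => hle P).trans ?_
    rw [← sum_mul, pow_succ, mul_right_comm]
    exact mul_le_mul_of_nonneg_right (ih (by omega)) hρ

lemma tup_cover (hh : ∀ S, 0 ≤ h S) (hN : 0 < Nv) (V : Finset α)
    (hw : Nv ≤ ∑ S ∈ R with S ⊆ V, h S) :
    ∀ m, ∑ S ∈ R with S ⊆ V, h S ≤ ∑ U, (if U ⊆ V then 1 else 0) * tup h R Nv m U := by
  intro m
  induction m with
  | zero =>
    simp only [tup, mul_ite, mul_zero]
    rw [sum_ite_mem, univ_inter, sum_filter]
    simp
  | succ m ih =>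
    rw [tup_sum (fun U => if U ⊆ V then (1 : ℝ) else 0)]
    have e : ∀ P, ∑ S ∈ R, (if P ∪ S ⊆ V then (1 : ℝ) else 0) * (tup h R Nv m P * (h S / Nv))
        = (if P ⊆ V then 1 else 0) * tup h R Nv m P * ((∑ S ∈ R with S ⊆ V, h S) / Nv) := by
      intro P
      rw [sum_filter, sum_div, mul_sum]
      refine sum_congr rfl fun S _ => ?_
      simp only [union_subset_iff]
      split_ifs <;> simp_all
    simp only [e, ← sum_mul]
    refine le_trans ?_ (le_mul_of_one_le_right
      (sum_nonneg fun U _ => mul_nonneg (by split_ifs <;> norm_num) (tup_nonneg hh hN _ _))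
      ((one_le_div hN).2 hw))
    exact ih

/-- Candidate certificates: unions of at most `n` members of `R` avoiding heavy sets. -/
noncomputable def certs (R : Finset (Finset α)) (ok : Finset α → Prop) [DecidablePred ok] :
    ℕ → Finset (Finset α)
  | 0 => {∅}
  | n + 1 => certs R ok n ∪ (((certs R ok n) ×ˢ R).image fun x => x.1 ∪ x.2).filter ok

lemma certs_card (ok : Finset α → Prop) [DecidablePred ok] (t : ℕ) (hR : ∀ S ∈ R, S.card ≤ t) :
    ∀ n, ∀ V ∈ certs R ok n, V.card ≤ n * t := by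
  intro n
  induction n with
  | zero => intro V hV; simp only [certs, mem_singleton] at hV; simp [hV]
  | succ n ih =>
    intro V hV
    simp only [certs, mem_union, mem_filter, mem_image, mem_product] at hV
    rcases hV with hV | ⟨⟨x, ⟨hx1, hx2⟩, rfl⟩, -⟩
    · exact (ih V hV).trans (Nat.mul_le_mul_right _ (by omega))
    · refine (card_union_le _ _).trans ?_
      rw [add_mul, one_mul]
      exact add_le_add (ih _ hx1) (hR _ hx2)

lemma mem_certs (ok : Finset α → Prop) [DecidablePred ok]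
    (hmono : ∀ U V, U ⊆ V → ok V → ok U) :
    ∀ n (𝒮 : Finset (Finset α)), 𝒮 ⊆ R → 𝒮.card ≤ n → ok (𝒮.sup id) →
      𝒮.sup id ∈ certs R ok n := by
  intro n
  induction n with
  | zero =>
    intro 𝒮 _ hc _
    rw [card_eq_zero.1 (Nat.le_zero.1 hc)]
    simp [certs]
  | succ n ih =>
    intro 𝒮 hsub hc hok
    simp only [certs, mem_union]
    rcases Nat.lt_or_ge 𝒮.card (n + 1) with h | h
    · exact Or.inl (ih 𝒮 hsub (by omega) hok)
    right
    obtain ⟨S, hS⟩ : 𝒮.Nonempty := card_pos.1 (by omega)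
    have e : (𝒮.erase S).sup id ∪ S = 𝒮.sup id := by
      conv_rhs => rw [← insert_erase hS, sup_insert]
      rw [union_comm]; rfl
    rw [mem_filter, mem_image]
    refine ⟨⟨((𝒮.erase S).sup id, S), mem_product.2 ⟨?_, hsub hS⟩, e⟩, hok⟩
    exact ih _ ((erase_subset _ _).trans hsub) (by rw [card_erase_of_mem hS]; omega)
      (hmono _ _ (by rw [← e]; exact subset_union_left) hok)

lemma sum_certs_le {q : ℝ} (hq : 0 ≤ q) (hh : ∀ S, 0 ≤ h S) (δ D : ℝ) (hδ : 0 < δ) (hD : 0 ≤ D)
    (hlow : ∀ S ∈ R, δ ≤ h S) (t : ℕ) (hR : ∀ S ∈ R, S.card ≤ t)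
    (ok : Finset α → Prop) [DecidablePred ok]
    (hok : ∀ V, ok V → ∀ J, J ⊆ V → deg q h R J ≤ D) (N : ℕ) :
    ∀ n ≤ N, ∑ V ∈ certs R ok n, q ^ V.card ≤ (1 + 2 ^ (N * t) * (D / δ)) ^ n := by
  intro n
  induction n with
  | zero => intro _; simp [certs]
  | succ n ih =>
    intro hn
    set F : ℝ := 2 ^ (N * t) * (D / δ) with hF
    have hF0 : 0 ≤ F := by positivity
    have step : ∑ V ∈ (((certs R ok n) ×ˢ R).image fun x => x.1 ∪ x.2).filter ok, q ^ V.card
        ≤ (∑ V ∈ certs R ok n, q ^ V.card) * F := by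
      rw [filter_image]
      refine (sum_image_le_of_nonneg fun V _ => pow_nonneg hq _).trans ?_
      rw [sum_filter, sum_product, sum_mul]
      refine sum_le_sum fun P hP => ?_
      have e : ∀ S, (if ok (P ∪ S) then q ^ (P ∪ S).card else 0)
          = q ^ P.card * (if ok (P ∪ S) then q ^ (S \ P).card else 0) := by
        intro S
        split_ifs
        · rw [← pow_add, ← card_union_of_disjoint disjoint_sdiff, union_sdiff_self_eq_union]
        · simp
      simp only [e, ← mul_sum, ← sum_filter]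
      refine mul_le_mul_of_nonneg_left ?_ (pow_nonneg hq _)
      set R' := R.filter fun S => ok (P ∪ S) with hR'
      have h1 : δ * ∑ S ∈ R', q ^ (S \ P).card ≤ ∑ J ∈ P.powerset, D := by
        have h2 := sum_new_le hq hh R' ∅ P (empty_subset _) fun S _ => empty_subset _
        rw [sdiff_empty] at h2
        refine le_trans ?_ (h2.trans (sum_le_sum fun J hJ => ?_))
        · rw [mul_sum]
          refine sum_le_sum fun S hS => mul_le_mul_of_nonneg_right ?_ (pow_nonneg hq _)
          exact hlow S (mem_filter.1 hS).1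
        · rw [empty_union]
          by_cases hex : ∃ S ∈ R', J ⊆ S
          · obtain ⟨S, hS, hJS⟩ := hex
            rw [hR', mem_filter] at hS
            exact (deg_mono hq hh (filter_subset _ _) J).trans
              (hok _ hS.2 J (hJS.trans subset_union_right))
          · push Not at hex
            refine le_trans (le_of_eq (sum_eq_zero fun S hS => ?_)) hD
            rw [mem_filter] at hS
            exact absurd hS.2 (hex S hS.1)
      rw [sum_const, card_powerset, nsmul_eq_mul] at h1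
      push_cast at h1
      rw [hF, ← mul_div_assoc, le_div_iff₀ hδ]
      calc (∑ S ∈ R', q ^ (S \ P).card) * δ = δ * ∑ S ∈ R', q ^ (S \ P).card := mul_comm _ _
        _ ≤ 2 ^ P.card * D := h1
        _ ≤ 2 ^ (N * t) * D := by
            refine mul_le_mul_of_nonneg_right (pow_le_pow_right₀ (by norm_num) ?_) hD
            exact (certs_card ok t hR n P hP).trans (Nat.mul_le_mul_right _ (by omega))
    simp only [certs]
    refine (cost_union_le hq _ _).trans ?_
    unfold cost
    have h0 : 0 ≤ ∑ V ∈ certs R ok n, q ^ V.card := sum_nonneg fun V _ => pow_nonneg hq _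
    have := ih (by omega)
    rw [pow_succ]
    nlinarith

end Vale.Agent.P034
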