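import Vale.Agent.P034.Level

open Finset

namespace Vale.Agent.P034

variable {α : Type*} [Fintype α] [DecidableEq α]

/-- Iterating the scale step. -/
theorem main_iter {q : ℝ} (hq : 0 ≤ q) : ∀ l : ℕ, 3 ≤ l → ∀ g : Finset α → ℝ, (∀ S, 0 ≤ g S) →
    g ∅ = 0 → (∀ S, g S ≠ 0 → (1 / 2 : ℝ) ^ (64 * 2 ^ l) ≤ g S) →
    pot (2 ^ 70 * q) g ≤ (1 / 2) ^ 520 →
    ∃ 𝒢 : Finset (Finset α), cost q 𝒢 ≤ 1 / 2 - (1 / 2) ^ l ∧
      ∀ H, pot (2 ^ 70 * q) g + 1 / 2 - (1 / 2) ^ l ≤ below g H → Hit 𝒢 H := by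
  obtain ⟨B, hB⟩ : ∃ B : ℝ, B = 2 ^ 70 := ⟨_, rfl⟩
  rw [← hB]
  have hB1 : (1 : ℝ) ≤ B := by rw [hB]; exact one_le_pow₀ (by norm_num)
  have hBq : 0 ≤ B * q := mul_nonneg (by linarith) hq
  intro l hl
  induction l, hl using Nat.le_induction with
  | base =>
    intro g hg _ hlow hQ
    refine ⟨univ.filter fun S => g S ≠ 0, ?_, ?_⟩
    · have h1 : (1 / 2 : ℝ) ^ (64 * 2 ^ 3) * cost q (univ.filter fun S => g S ≠ 0)
          ≤ pot (B * q) g := by
        unfold cost pot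
        rw [mul_sum]
        refine le_trans (sum_le_sum fun S hS => ?_) (sum_le_sum_of_subset_of_nonneg (subset_univ _)
          fun S _ _ => mul_nonneg (hg S) (pow_nonneg hBq _))
        exact mul_le_mul (hlow S (mem_filter.1 hS).2)
          (pow_le_pow_left₀ hq (le_mul_of_one_le_left hq hB1) _) (pow_nonneg hq _) (hg S)
      have h2 : (1 / 2 : ℝ) ^ 520 ≤ (1 / 2) ^ (64 * 2 ^ 3) * (3 / 8) := by
        rw [show (520 : ℕ) = 64 * 2 ^ 3 + 8 by norm_num, pow_add]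
        exact mul_le_mul_of_nonneg_left (by norm_num) (pow_nonneg (by norm_num) _)
      have h3 : (0 : ℝ) < (1 / 2) ^ (64 * 2 ^ 3) := pow_pos (by norm_num) _
      have h4 := le_of_mul_le_mul_left (h1.trans (hQ.trans h2)) h3
      norm_num
      linarith
    · intro H hH
      have : 0 < below g H := by
        have := pot_nonneg hBq hg
        norm_num at hH ⊢
        linarith
      obtain ⟨S, hS, hne⟩ := exists_ne_zero_of_sum_ne_zero this.ne'
      exact ⟨S, mem_filter.2 ⟨mem_univ _, hne⟩, mem_powerset.1 hS⟩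
  | succ l hl ih =>
    intro g hg hg0 hlow hQ
    have hQ1 : pot (B * q) g ≤ 1 := hQ.trans (pow_le_one₀ (by norm_num) (by norm_num))
    obtain ⟨g', 𝒢₁, hg', hg'0, hlow', hQ', hc, hH⟩ :=
      level hq (2 ^ (l + 1)) Nat.one_le_two_pow g hg hg0 hlow (by rw [← hB]; exact hQ1)
    rw [← hB] at hQ' hH
    obtain ⟨𝒢₂, hc₂, hcov⟩ := ih g' hg' hg'0
      (fun S hS => by
        have := hlow' S hS
        rwa [show 32 * 2 ^ (l + 1) = 64 * 2 ^ l by ring] at this)
      (hQ'.trans hQ)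
    have hkey : 4 * (1 / 2 : ℝ) ^ (2 ^ (l + 1)) ≤ (1 / 2) ^ (l + 1) := by
      have : l + 3 ≤ 2 ^ (l + 1) := by
        clear hc hlow hlow' hH ih hc₂ hcov
        induction l, hl using Nat.le_induction with
        | base => norm_num
        | succ n _ ihn =>
          rw [pow_succ]
          omega
      calc 4 * (1 / 2 : ℝ) ^ (2 ^ (l + 1)) ≤ 4 * (1 / 2) ^ (l + 3) :=
            mul_le_mul_of_nonneg_left
              (pow_le_pow_of_le_one (by norm_num) (by norm_num) this) (by norm_num)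
        _ = (1 / 2) ^ (l + 1) := by rw [pow_add, pow_add]; ring
    have hl2 : (1 / 2 : ℝ) ^ l = (1 / 2) ^ (l + 1) + (1 / 2) ^ (l + 1) := by rw [pow_succ]; ring
    refine ⟨𝒢₁ ∪ 𝒢₂, ?_, ?_⟩
    · have := cost_union_le hq 𝒢₁ 𝒢₂
      linarith
    · intro H hHw
      rcases hH H with h | h
      · exact h.mono subset_union_left
      refine (hcov H ?_).mono subset_union_right
      have h2 : (1 / 2 : ℝ) ^ (2 * 2 ^ (l + 1)) ≤ (1 / 2) ^ (l + 1) := by
        refine le_trans (pow_le_pow_of_le_one (by norm_num) (by norm_num)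
          (Nat.le_mul_of_pos_left _ (by norm_num))) ?_
        linarith [pow_pos (show (0 : ℝ) < 1 / 2 by norm_num) (2 ^ (l + 1))]
      have ha : pot (B * q) g + 1 / 2 - (1 / 2) ^ (l + 1) ≤ 1 := by
        have : (1 / 2 : ℝ) ^ 520 ≤ 1 / 2 := pow_le_of_le_one (by norm_num) (by norm_num) (by norm_num)
        have hpp : (0 : ℝ) < (1 / 2) ^ (l + 1) := pow_pos (by norm_num) _
        generalize (1 / 2 : ℝ) ^ (l + 1) = e at hpp ⊢
        generalize (1 / 2 : ℝ) ^ 520 = c at this hQ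
        linarith
      have := h _ ha hHw
      linarith

/-- A fractional cover of cost `1/2` at `p` gives an integral cover of cost `1/2` at `p / 2^590`. -/
theorem small_of_fractional {p : ℝ} (hp : 0 ≤ p) (g : Finset α → ℝ) (hg : ∀ S, 0 ≤ g S)
    (hw : ∑ S, g S * p ^ S.card ≤ 1 / 2) :
    ∃ 𝒢 : Finset (Finset α), cost (p / 2 ^ 590) 𝒢 ≤ 1 / 2 ∧
      ∀ H, 1 ≤ below g H → Hit 𝒢 H := by
  obtain ⟨B, hB⟩ : ∃ B : ℝ, B = 2 ^ 70 := ⟨_, rfl⟩
  obtain ⟨L, hL⟩ : ∃ L : ℝ, L = 2 ^ 590 := ⟨_, rfl⟩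
  obtain ⟨c, hcdef⟩ : ∃ c : ℝ, c = (1 / 2) ^ 520 := ⟨_, rfl⟩
  rw [← hL]
  have hL0 : 0 < L := by rw [hL]; exact pow_pos two_pos _
  have hc0 : 0 ≤ c := by rw [hcdef]; exact pow_nonneg (by norm_num) _
  have hc1 : c ≤ 1 := by rw [hcdef]; exact pow_le_one₀ (by norm_num) (by norm_num)
  have hBL : B / L = c := by
    rw [hB, hL, hcdef, show (590 : ℕ) = 70 + 520 by norm_num, pow_add, one_div_pow]
    have : (2 : ℝ) ^ 70 ≠ 0 := pow_ne_zero _ two_ne_zero
    have : (2 : ℝ) ^ 520 ≠ 0 := pow_ne_zero _ two_ne_zero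
    generalize (2 : ℝ) ^ 70 = a at *
    generalize (2 : ℝ) ^ 520 = b at *
    field_simp
  let g₂ : Finset α → ℝ := fun S => if S = ∅ then 0 else 2 * g S
  have hg₂ : ∀ S, 0 ≤ g₂ S := fun S => by
    simp only [g₂]; split_ifs <;> linarith [hg S]
  have hempty : g ∅ ≤ 1 / 2 := by
    refine le_trans ?_ hw
    refine le_trans (le_of_eq ?_) (single_le_sum
      (fun S _ => mul_nonneg (hg S) (pow_nonneg hp _)) (mem_univ ∅))
    simp
  have hpot : pot (B * (p / L)) g₂ ≤ c := by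
    rw [show B * (p / L) = p * c by rw [← hBL]; ring]
    calc pot (p * c) g₂ ≤ ∑ S, c * (2 * (g S * p ^ S.card)) := by
          refine sum_le_sum fun S _ => ?_
          simp only [g₂]
          split_ifs with h
          · rw [zero_mul]
            exact mul_nonneg hc0 (mul_nonneg two_pos.le (mul_nonneg (hg S) (pow_nonneg hp _)))
          · rw [mul_pow]
            have hcS : c ^ S.card ≤ c := pow_le_of_le_one hc0 hc1 (by simpa using h)
            have := mul_nonneg (hg S) (pow_nonneg hp S.card)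
            nlinarith
      _ ≤ c := by
          rw [← mul_sum, ← mul_sum]
          nlinarith
  have hbound : ∃ l : ℕ, 3 ≤ l ∧ ∀ S, g₂ S ≠ 0 → (1 / 2 : ℝ) ^ (64 * 2 ^ l) ≤ g₂ S := by
    have : ∀ S, ∃ n : ℕ, g₂ S ≠ 0 → (1 / 2 : ℝ) ^ n ≤ g₂ S := by
      intro S
      rcases eq_or_ne (g₂ S) 0 with h | h
      · exact ⟨0, fun h' => absurd h h'⟩
      · obtain ⟨n, hn⟩ := exists_pow_lt_of_lt_one (lt_of_le_of_ne (hg₂ S) (Ne.symm h))
          (show (1 / 2 : ℝ) < 1 by norm_num)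
        exact ⟨n, fun _ => hn.le⟩
    choose n hn using this
    refine ⟨3 + ∑ S, n S, by omega, fun S hS => le_trans (pow_le_pow_of_le_one (by norm_num)
      (by norm_num) ?_) (hn S hS)⟩
    have h1 : n S ≤ ∑ T, n T := single_le_sum (fun T _ => Nat.zero_le _) (mem_univ S)
    have h2 := Nat.lt_two_pow_self (n := 3 + ∑ T, n T)
    omega
  obtain ⟨l, hl, hlow⟩ := hbound
  obtain ⟨𝒢, hc, hcov⟩ := main_iter (div_nonneg hp hL0.le) l hl g₂ hg₂ (by simp [g₂]) hlow
    (by rw [← hB, ← hcdef]; exact hpot)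
  rw [← hB] at hcov
  have hl0 : (0 : ℝ) < (1 / 2) ^ l := pow_pos (by norm_num) _
  refine ⟨𝒢, by linarith, fun H hH => hcov H ?_⟩
  have h2 : below g₂ H = 2 * (below g H - g ∅) := by
    unfold below
    rw [← add_sum_erase _ _ (empty_mem_powerset H), ← add_sum_erase _ _ (empty_mem_powerset H)]
    simp only [g₂, if_true, zero_add, add_sub_cancel_left, mul_sum]
    exact sum_congr rfl fun S hS => if_neg (mem_erase.1 hS).1
  have hc2 : c ≤ 1 / 2 := by
    rw [hcdef]; exact pow_le_of_le_one (by norm_num) (by norm_num) (by norm_num)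
  linarith

end Vale.Agent.P034
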